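import Mathlib

/-! Key lemma (*) of the cut comparison (helper362 / helper787): abstract submodular form. -/

open Finset

namespace Vale.Agent.P038.H259

variable {V : Type*} [Fintype V] [DecidableEq V]

/-- `kk c K Y` = min of `c` over the sets `Y ∪ Z`, `Z ⊆ K`. -/
noncomputable def kk (c : Finset V → ℤ) (K Y : Finset V) : ℤ :=
  K.powerset.inf' ⟨∅, by simp⟩ (fun Z => c (Y ∪ Z))

theorem kk_le (c : Finset V → ℤ) {K Y W : Finset V} (h1 : Y ⊆ W) (h2 : W ⊆ K) :
    kk c K Y ≤ c W := by
  have h := Finset.inf'_le (s := K.powerset) (fun Z => c (Y ∪ Z)) (b := W)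
    (by simpa using h2)
  have h3 : Y ∪ W = W := union_eq_right.2 h1
  simp only [h3] at h
  exact h

theorem kk_ex (c : Finset V → ℤ) {K Y : Finset V} (h1 : Y ⊆ K) :
    ∃ W, Y ⊆ W ∧ W ⊆ K ∧ kk c K Y = c W := by
  obtain ⟨Z, hZ, h⟩ := Finset.exists_mem_eq_inf' (s := K.powerset) ⟨∅, by simp⟩
    (fun Z => c (Y ∪ Z))
  refine ⟨Y ∪ Z, subset_union_left, union_subset h1 (by simpa using hZ), h⟩

theorem kk_mono (c : Finset V → ℤ) {K Y Y' : Finset V} (h1 : Y ⊆ Y') (h2 : Y' ⊆ K) :
    kk c K Y ≤ kk c K Y' := by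
  obtain ⟨W, hW1, hW2, hW⟩ := kk_ex c h2
  rw [hW]
  exact kk_le c (h1.trans hW1) hW2

theorem kk_self (c : Finset V → ℤ) (K : Finset V) : kk c K K = c K := by
  obtain ⟨W, hW1, hW2, hW⟩ := kk_ex c (Subset.refl K)
  rw [hW, Subset.antisymm hW2 hW1]

theorem kk_bot (c : Finset V → ℤ) {K Y : Finset V} (hY : Y ⊆ K)
    (h : ∀ W, Y ⊆ W → W ⊆ K → c Y ≤ c W) : kk c K Y = c Y := by
  obtain ⟨W, hW1, hW2, hW⟩ := kk_ex c hY
  apply le_antisymm
  · exact kk_le c (Subset.refl Y) hY
  · rw [hW]; exact h W hW1 hW2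

/-- (ii): marginals are monotone. -/
theorem kk_marg (c : Finset V → ℤ)
    (sub : ∀ S T, c (S ∪ T) + c (S ∩ T) ≤ c S + c T)
    {K K' X Y : Finset V} {b : V} (hK : K' ⊆ K) (hX : X ⊆ K') (hXY : X ⊆ Y) (hY : Y ⊆ K)
    (hb : b ∈ K') :
    kk c K (insert b Y) + kk c K' X ≤ kk c K' (insert b X) + kk c K Y := by
  obtain ⟨W', h1, h2, h3⟩ := kk_ex c (K := K') (Y := insert b X)
    (insert_subset hb hX)
  obtain ⟨W, g1, g2, g3⟩ := kk_ex c hY
  rw [h3, g3]
  have a1 : kk c K (insert b Y) ≤ c (W' ∪ W) := by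
    apply kk_le
    · apply insert_subset
      · exact mem_union_left _ (h1 (mem_insert_self _ _))
      · exact g1.trans subset_union_right
    · exact union_subset (h2.trans hK) g2
  have a2 : kk c K' X ≤ c (W' ∩ W) := by
    apply kk_le
    · exact subset_inter ((subset_insert _ _).trans h1) (hXY.trans g1)
    · exact inter_subset_left.trans h2
  have a3 := sub W' W
  linarith

/-- layer cake for nonnegative integer functions -/
theorem layer {f g : V → ℤ} (hf : ∀ a, 0 ≤ f a) (hg : ∀ a, 0 ≤ g a)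
    (h : ∀ s : ℕ, (univ.filter fun a => (s : ℤ) < f a).card ≤
      (univ.filter fun a => (s : ℤ) < g a).card) :
    ∑ a, f a ≤ ∑ a, g a := by
  classical
  obtain ⟨M, hM⟩ : ∃ M : ℕ, ∀ a, f a ≤ M ∧ g a ≤ M := by
    refine ⟨∑ a, ((f a).toNat + (g a).toNat), fun a => ?_⟩
    have h1 : (f a).toNat + (g a).toNat ≤ ∑ a, ((f a).toNat + (g a).toNat) :=
      single_le_sum (f := fun a => (f a).toNat + (g a).toNat) (fun _ _ => Nat.zero_le _)
        (mem_univ a)
    have h2 := Int.toNat_of_nonneg (hf a)
    have h3 := Int.toNat_of_nonneg (hg a)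
    constructor <;> omega
  have key : ∀ (x : ℤ), 0 ≤ x → x ≤ M →
      x = ∑ s ∈ range M, (if (s : ℤ) < x then (1 : ℤ) else 0) := by
    intro x hx hxM
    have : (range M).filter (fun s : ℕ => (s : ℤ) < x) = range x.toNat := by
      ext s
      simp only [mem_filter, mem_range]
      constructor
      · rintro ⟨_, h2⟩; omega
      · intro h2; omega
    rw [← Finset.sum_filter, this]
    simp
    omega
  have e1 : ∑ a, f a = ∑ s ∈ range M, ((univ.filter fun a => (s : ℤ) < f a).card : ℤ) := by
    rw [Finset.sum_congr rfl (fun a _ => key (f a) (hf a) (hM a).1), Finset.sum_comm]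
    apply Finset.sum_congr rfl
    intro s _
    rw [← Finset.sum_filter]; simp
  have e2 : ∑ a, g a = ∑ s ∈ range M, ((univ.filter fun a => (s : ℤ) < g a).card : ℤ) := by
    rw [Finset.sum_congr rfl (fun a _ => key (g a) (hg a) (hM a).2), Finset.sum_comm]
    apply Finset.sum_congr rfl
    intro s _
    rw [← Finset.sum_filter]; simp
  rw [e1, e2]
  apply Finset.sum_le_sum
  intro s _
  exact_mod_cast h s

/-- intersection over the in-neighbours -/
def sh (I : V → Finset V) (P : V → Finset V) (a : V) : Finset V :=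
  univ.filter fun x => ∀ z ∈ I a, x ∈ P z

theorem sh_sub (I P : V → Finset V) {a z : V} (hz : z ∈ I a) : sh I P a ⊆ P z := by
  intro x hx
  simp only [sh, mem_filter, mem_univ, true_and] at hx
  exact hx z hz

/-- **Key lemma.** -/
theorem keyLemma (c : Finset V → ℤ)
    (sub : ∀ S T, c (S ∪ T) + c (S ∩ T) ≤ c S + c T)
    (I P Q : V → Finset V) (hPQ : ∀ a, P a ⊆ Q a)
    (hR : ∀ a S, P a ⊆ S → S ⊆ Q a → c (P a) ≤ c S)
    (hC : ∀ b (T : Finset V), (∀ a ∈ T, b ∈ Q a ∧ b ∉ P a) →
      T.card ≤ (univ.filter fun a' => (∀ z ∈ I a', b ∈ Q z) ∧ ∃ z ∈ I a', z ∈ T).card) :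
    ∑ a, (c (Q a) - c (P a)) ≤ ∑ a, (c (sh I Q a) - c (sh I P a)) := by
  classical
  -- (iii)
  have hShR : ∀ a Z, sh I P a ⊆ Z → Z ⊆ sh I Q a → c (sh I P a) ≤ c Z := by
    intro a Z h1 h2
    have ind : ∀ J : Finset V, J ⊆ I a →
        c (Z.filter fun x => ∀ z ∈ J, x ∈ P z) ≤ c Z := by
      intro J
      induction J using Finset.induction_on with
      | empty => intro _; simp
      | insert z J hz ih =>
        intro hJ
        have ih' := ih ((subset_insert _ _).trans hJ)
        have hzI : z ∈ I a := hJ (mem_insert_self _ _)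
        set W := Z.filter fun x => ∀ z ∈ J, x ∈ P z with hW
        have e : (Z.filter fun x => ∀ y ∈ insert z J, x ∈ P y) = W ∩ P z := by
          ext x
          simp only [hW, mem_filter, mem_inter, mem_insert, forall_eq_or_imp]
          tauto
        rw [e]
        have s := sub W (P z)
        have r := hR z (W ∪ P z) subset_union_right (union_subset
          ((filter_subset _ _).trans (h2.trans (sh_sub I Q hzI))) (hPQ z))
        linarith
    have := ind (I a) (Subset.refl _)
    have e : (Z.filter fun x => ∀ z ∈ I a, x ∈ P z) = sh I P a := by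
      ext x
      simp only [sh, mem_filter, mem_univ, true_and]
      constructor
      · exact fun h => h.2
      · intro h
        exact ⟨h1 (by simpa [sh] using h), h⟩
    rwa [e] at this
  have hShPQ : ∀ a, sh I P a ⊆ sh I Q a := by
    intro a x hx
    simp only [sh, mem_filter, mem_univ, true_and] at hx ⊢
    exact fun z hz => hPQ z (hx z hz)
  -- enumeration
  set n := Fintype.card V with hn
  let e : Fin n ≃ V := (Fintype.equivFin V).symm
  let Pre : ℕ → Finset V := fun i => univ.filter fun v => (e.symm v).val < i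
  have Pre0 : Pre 0 = ∅ := by simp [Pre]
  have Pren : Pre n = univ := by
    ext v; simp [Pre]
  have PreS : ∀ i (hi : i < n), Pre (i + 1) = insert (e ⟨i, hi⟩) (Pre i) := by
    intro i hi
    ext v
    simp only [Pre, mem_filter, mem_univ, true_and, mem_insert]
    constructor
    · intro h
      rcases Nat.lt_succ_iff_lt_or_eq.1 h with h | h
      · exact Or.inr h
      · left
        rw [← e.apply_symm_apply v]
        congr 1
        exact Fin.ext h
    · rintro (h | h)
      · subst h; simp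
      · omega
  let F : (V → Finset V) → (V → Finset V) → V → ℕ → ℤ := fun P Q a i =>
    kk c (Q a) (P a ∪ (Pre i ∩ Q a))
  have tel : ∀ (P Q : V → Finset V), (∀ a, P a ⊆ Q a) →
      (∀ a S, P a ⊆ S → S ⊆ Q a → c (P a) ≤ c S) → ∀ a,
      c (Q a) - c (P a) = ∑ i ∈ range n, (F P Q a (i + 1) - F P Q a i) := by
    intro P Q h1 h2 a
    rw [Finset.sum_range_sub (fun i => F P Q a i)]
    have a1 : F P Q a n = c (Q a) := by
      simp only [F, Pren, univ_inter]
      rw [union_eq_right.2 (h1 a), kk_self]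
    have a2 : F P Q a 0 = c (P a) := by
      simp only [F, Pre0, empty_inter, union_empty]
      exact kk_bot c (h1 a) (h2 a)
    rw [a1, a2]
  rw [Finset.sum_congr rfl (fun a _ => tel P Q hPQ hR a),
    Finset.sum_congr rfl (fun a _ => tel (sh I P) (sh I Q) hShPQ hShR a),
    Finset.sum_comm, Finset.sum_comm (s := univ (α := V)) (t := range n)
      (f := fun a i => F (sh I P) (sh I Q) a (i + 1) - F (sh I P) (sh I Q) a i)]
  apply Finset.sum_le_sum
  intro i hi
  have hi' : i < n := mem_range.1 hi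
  have mono : ∀ (P Q : V → Finset V), (∀ a, P a ⊆ Q a) → ∀ a,
      0 ≤ F P Q a (i + 1) - F P Q a i := by
    intro P Q h1 a
    have := kk_mono c (K := Q a) (Y := P a ∪ (Pre i ∩ Q a)) (Y' := P a ∪ (Pre (i + 1) ∩ Q a))
      (union_subset_union_right (inter_subset_inter_right (by
        rw [PreS i hi']; exact subset_insert _ _)))
      (union_subset (h1 a) inter_subset_right)
    simp only [F]; linarith
  apply layer (mono P Q hPQ) (mono (sh I P) (sh I Q) hShPQ)
  intro s
  set b := e ⟨i, hi'⟩ with hb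
  -- y > 0 forces b ∈ Q a \ P a
  have hpos : ∀ a, (s : ℤ) < F P Q a (i + 1) - F P Q a i → b ∈ Q a ∧ b ∉ P a := by
    intro a ha
    by_contra hcon
    have heq : P a ∪ (Pre (i + 1) ∩ Q a) = P a ∪ (Pre i ∩ Q a) := by
      rw [PreS i hi']
      ext v
      simp only [mem_union, mem_inter, mem_insert]
      constructor
      · rintro (h | ⟨h1 | h1, h2⟩)
        · exact Or.inl h
        · left
          by_contra hv
          apply hcon
          rw [hb, ← h1]
          exact ⟨h2, hv⟩
        · exact Or.inr ⟨h1, h2⟩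
      · rintro (h | ⟨h1, h2⟩)
        · exact Or.inl h
        · exact Or.inr ⟨Or.inr h1, h2⟩
    simp only [F, heq, sub_self] at ha
    have : (0 : ℤ) ≤ s := Int.natCast_nonneg s
    omega
  refine (hC b (univ.filter fun a => (s : ℤ) < F P Q a (i + 1) - F P Q a i) ?_).trans ?_
  · intro a ha
    exact hpos a (by simpa using ha)
  · apply card_le_card
    intro a ha
    simp only [mem_filter, mem_univ, true_and] at ha ⊢
    obtain ⟨hbQ, z, hz, hs⟩ := ha
    have hbS : b ∈ sh I Q a := by simpa [sh] using hbQ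
    have hzb := hpos z hs
    have := kk_marg c sub (K := Q z) (K' := sh I Q a)
      (X := sh I P a ∪ (Pre i ∩ sh I Q a)) (Y := P z ∪ (Pre i ∩ Q z)) (b := b)
      (sh_sub I Q hz) (union_subset (hShPQ a) inter_subset_right)
      (union_subset_union (sh_sub I P hz) (inter_subset_inter_left (sh_sub I Q hz)))
      (union_subset (hPQ z) inter_subset_right) hbS
    have e1 : insert b (sh I P a ∪ (Pre i ∩ sh I Q a)) =
        sh I P a ∪ (Pre (i + 1) ∩ sh I Q a) := by
      rw [PreS i hi']
      ext v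
      simp only [mem_union, mem_inter, mem_insert, ← hb]
      constructor
      · rintro (h | h | h)
        · subst h; exact Or.inr ⟨Or.inl rfl, hbS⟩
        · exact Or.inl h
        · exact Or.inr ⟨Or.inr h.1, h.2⟩
      · rintro (h | ⟨h | h, h2⟩)
        · exact Or.inr (Or.inl h)
        · exact Or.inl h
        · exact Or.inr (Or.inr ⟨h, h2⟩)
    have e2 : insert b (P z ∪ (Pre i ∩ Q z)) = P z ∪ (Pre (i + 1) ∩ Q z) := by
      rw [PreS i hi']
      ext v
      simp only [mem_union, mem_inter, mem_insert, ← hb]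
      constructor
      · rintro (h | h | h)
        · subst h; exact Or.inr ⟨Or.inl rfl, hzb.1⟩
        · exact Or.inl h
        · exact Or.inr ⟨Or.inr h.1, h.2⟩
      · rintro (h | ⟨h | h, h2⟩)
        · exact Or.inr (Or.inl h)
        · exact Or.inl h
        · exact Or.inr (Or.inr ⟨h, h2⟩)
    rw [e1, e2] at this
    simp only [F] at hs ⊢
    linarith

end Vale.Agent.P038.H259
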