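import Mathlib
import Vale.Agent.P038.H259.Key

/-! Seymour's second neighbourhood conjecture, unweighted, from scratch:
    (G) by arc-minimality (294), comparison of two min cuts (362 / 787 / 357), contradiction. -/

open Finset

namespace Vale.Agent.P038.H259

variable {V : Type*} [Fintype V] [DecidableEq V]

/-- closed out-neighbourhood of a set for a (reflexive) relation -/
noncomputable def nb (R : V → V → Prop) (S : Finset V) : Finset V :=
  open Classical in univ.filter fun y => ∃ x ∈ S, R x y

theorem mem_nb (R : V → V → Prop) (S : Finset V) (y : V) :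
    y ∈ nb R S ↔ ∃ x ∈ S, R x y := by
  classical
  simp [nb]

theorem nb_mono (R : V → V → Prop) {S T : Finset V} (h : S ⊆ T) : nb R S ⊆ nb R T := by
  intro y hy
  rw [mem_nb] at hy ⊢
  obtain ⟨x, hx, hxy⟩ := hy
  exact ⟨x, h hx, hxy⟩

theorem sub_nb {R : V → V → Prop} (hr : ∀ a, R a a) (S : Finset V) : S ⊆ nb R S := by
  intro y hy
  rw [mem_nb]
  exact ⟨y, hy, hr y⟩

theorem nb_union (R : V → V → Prop) (S T : Finset V) : nb R (S ∪ T) = nb R S ∪ nb R T := by
  ext y
  simp only [mem_nb, mem_union]
  constructor
  · rintro ⟨x, h | h, h2⟩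
    · exact Or.inl ⟨x, h, h2⟩
    · exact Or.inr ⟨x, h, h2⟩
  · rintro (⟨x, h, h2⟩ | ⟨x, h, h2⟩)
    · exact ⟨x, Or.inl h, h2⟩
    · exact ⟨x, Or.inr h, h2⟩

/-- counterexample property: `|N₂| < |N₁|` for every vertex, in closed form -/
def CE (R : V → V → Prop) : Prop :=
  (∀ a, R a a) ∧ (∀ a b, R a b → R b a → a = b) ∧
  ∀ v, (nb R (nb R {v})).card + 2 ≤ 2 * (nb R {v}).card

/-- number of arcs -/
noncomputable def narc (R : V → V → Prop) : ℕ :=
  open Classical in (univ.filter fun p : V × V => R p.1 p.2).card

/-- 294's (G) in an arc-minimal counterexample. -/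
theorem gset {R : V → V → Prop} (h : CE R) (hmin : ∀ R' : V → V → Prop, CE R' → narc R ≤ narc R')
    (X : Finset V) (hX : nb R X ≠ X) :
    (nb R (nb R X)).card + X.card < 2 * (nb R X).card := by
  classical
  obtain ⟨hr, ho, hF⟩ := h
  set L := nb R X \ X with hL
  -- d T
  let d : Finset V → ℤ := fun T => ((nb R T \ X).card : ℤ) - 2 * T.card
  obtain ⟨T, hT, hTmin⟩ := Finset.exists_min_image L.powerset d ⟨∅, by simp⟩
  have hTL : T ⊆ L := mem_powerset.1 hT
  -- every minimiser is L
  have hall : ∀ T ∈ L.powerset, (∀ T' ∈ L.powerset, d T ≤ d T') → L ⊆ T := by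
    intro T hT hTmin
    have hTL : T ⊆ L := mem_powerset.1 hT
    let R' : V → V → Prop := fun x y => R x y ∧ ¬ (x ∈ X ∧ y ∉ X ∧ y ∉ T)
    have hR'R : ∀ x y, R' x y → R x y := fun x y hxy => hxy.1
    have hsub : ∀ S S' : Finset V, S ⊆ S' → nb R' S ⊆ nb R S' := by
      intro S S' hS y hy
      rw [mem_nb] at hy ⊢
      obtain ⟨x, hx, hxy⟩ := hy
      exact ⟨x, hS hx, hxy.1⟩
    have hCE' : CE R' := by
      refine ⟨?_, ?_, ?_⟩
      · intro a
        refine ⟨hr a, ?_⟩
        rintro ⟨h1, h2, _⟩
        exact h2 h1
      · intro a b h1 h2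
        exact ho a b h1.1 h2.1
      · intro v
        by_cases hv : v ∈ X
        · -- b
          set Dv := nb R {v} \ (X ∪ T) with hDv
          have e1 : nb R' {v} = nb R {v} \ Dv := by
            ext y
            simp only [hDv, mem_nb, mem_sdiff, mem_union, mem_singleton, exists_eq_left, R']
            tauto
          have hDsub : Dv ⊆ nb R {v} := sdiff_subset
          have c1 : (nb R' {v}).card + Dv.card = (nb R {v}).card := by
            rw [e1]
            exact card_sdiff_add_card_eq_card hDsub
          set E := nb R Dv \ (nb R T ∪ X) with hE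
          have hEsub : E ⊆ nb R (nb R {v}) := sdiff_subset.trans (nb_mono R hDsub)
          have e2 : nb R' (nb R' {v}) ⊆ nb R (nb R {v}) \ E := by
            intro z hz
            rw [mem_sdiff]
            refine ⟨hsub _ _ (hsub _ _ (Subset.refl _)) hz, ?_⟩
            rw [hE, mem_sdiff]
            rintro ⟨_, h2⟩
            apply h2
            rw [mem_nb] at hz
            obtain ⟨c, hc, hcz⟩ := hz
            rw [e1, mem_sdiff, hDv, mem_sdiff, mem_union] at hc
            rw [mem_union, mem_nb]
            by_cases hcX : c ∈ X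
            · by_cases hzX : z ∈ X
              · exact Or.inr hzX
              · left
                have : z ∈ T := by
                  by_contra hzT
                  exact hcz.2 ⟨hcX, hzX, hzT⟩
                exact ⟨z, this, hr z⟩
            · left
              have : c ∈ T := by
                by_contra hcT
                apply hc.2
                refine ⟨hc.1, ?_⟩
                rintro (h | h)
                · exact hcX h
                · exact hcT h
              exact ⟨c, this, hcz.1⟩
          have c2 : (nb R' (nb R' {v})).card + E.card ≤ (nb R (nb R {v})).card := by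
            have := card_le_card e2
            have h3 := card_sdiff_add_card_eq_card hEsub
            omega
          have hTD : T ∪ Dv ∈ L.powerset := by
            rw [mem_powerset]
            apply union_subset hTL
            intro y hy
            rw [hDv, mem_sdiff, mem_union] at hy
            rw [hL, mem_sdiff]
            refine ⟨nb_mono R (by simpa using hv) hy.1, fun h => hy.2 (Or.inl h)⟩
          have hd := hTmin _ hTD
          have c3 : (T ∪ Dv).card = T.card + Dv.card := by
            apply card_union_of_disjoint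
            rw [disjoint_left]
            intro y hy1 hy2
            rw [hDv, mem_sdiff, mem_union] at hy2
            exact hy2.2 (Or.inr hy1)
          have e3 : nb R (T ∪ Dv) \ X = (nb R T \ X) ∪ E := by
            ext y
            simp only [nb_union, hE, mem_sdiff, mem_union]
            tauto
          have c4 : (nb R (T ∪ Dv) \ X).card = (nb R T \ X).card + E.card := by
            rw [e3]
            apply card_union_of_disjoint
            rw [disjoint_left]
            intro y hy1 hy2
            rw [hE, mem_sdiff, mem_union] at hy2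
            rw [mem_sdiff] at hy1
            exact hy2.2 (Or.inl hy1.1)
          simp only [d] at hd
          rw [c3, c4] at hd
          push_cast at hd
          have := hF v
          omega
        · have e1 : nb R' {v} = nb R {v} := by
            ext y
            simp only [mem_nb, mem_singleton, exists_eq_left, R']
            tauto
          rw [e1]
          have := card_le_card (hsub (nb R {v}) (nb R {v}) (Subset.refl _))
          have := hF v
          omega
    have h1 := hmin R' hCE'
    have h2 : (univ.filter fun p : V × V => R' p.1 p.2) ⊆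
        (univ.filter fun p : V × V => R p.1 p.2) := by
      intro p hp
      simp only [mem_filter, mem_univ, true_and] at hp ⊢
      exact hp.1
    have h3 := Finset.eq_of_subset_of_card_le h2 (by unfold narc at h1; convert h1)
    intro y hy
    by_contra hyT
    rw [hL, mem_sdiff, mem_nb] at hy
    obtain ⟨⟨x, hx, hxy⟩, hyX⟩ := hy
    have h4 : (x, y) ∈ (univ.filter fun p : V × V => R' p.1 p.2) := by
      rw [h3]; simpa using hxy
    simp only [mem_filter, mem_univ, true_and] at h4
    exact h4.2 ⟨hx, hyX, hyT⟩
  have hTeq : T = L := Subset.antisymm hTL (hall T hT hTmin)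
  have hLne : L ≠ ∅ := by
    intro h0
    apply hX
    apply Subset.antisymm
    · exact sdiff_eq_empty_iff_subset.1 h0
    · exact sub_nb hr X
  have hlt : d L < d ∅ := by
    by_contra hcon
    have hge : d ∅ ≤ d L := not_lt.1 hcon
    have := hall ∅ (by simp) (fun T' hT' => hge.trans (hTeq ▸ hTmin T' hT'))
    exact hLne (subset_empty.1 this)
  have hXN : X ⊆ nb R X := sub_nb hr X
  have hd0 : d ∅ = 0 := by
    have : nb R (∅ : Finset V) = ∅ := by
      ext y; simp [mem_nb]
    simp [d, this]
  rw [hd0] at hlt
  simp only [d] at hlt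
  have e4 : nb R (nb R X) = X ∪ (nb R L \ X) := by
    have : nb R X = X ∪ L := by rw [hL, union_sdiff_of_subset hXN]
    conv_lhs => rw [this, nb_union]
    ext y
    simp only [mem_union, mem_sdiff]
    constructor
    · rintro (h | h)
      · by_cases hy : y ∈ X
        · exact Or.inl hy
        · right
          refine ⟨sub_nb hr L ?_, hy⟩
          rw [hL, mem_sdiff]
          exact ⟨h, hy⟩
      · by_cases hy : y ∈ X
        · exact Or.inl hy
        · exact Or.inr ⟨h, hy⟩
    · rintro (h | h)
      · exact Or.inl (hXN h)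
      · exact Or.inr h.1
  have c5 : (nb R (nb R X)).card = X.card + (nb R L \ X).card := by
    rw [e4]
    apply card_union_of_disjoint
    rw [disjoint_left]
    intro y h1 h2
    exact (mem_sdiff.1 h2).2 h1
  have c6 : L.card + X.card = (nb R X).card := by
    rw [hL]; exact card_sdiff_add_card_eq_card hXN
  omega

/-- valid pairs -/
def Valid (R : V → V → Prop) (B U : V → Finset V) : Prop :=
  (∀ a x, R a x → x ∈ B a) ∧ (∀ a, B a ⊆ U a) ∧ ∀ a x, x ∈ U a → R x a → a = x

/-- row interior -/
noncomputable def rs (R : V → V → Prop) (B : V → Finset V) (a : V) : Finset V :=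
  open Classical in univ.filter fun x => ∀ y, R x y → y ∈ B a

/-- column dilation -/
noncomputable def ld (R : V → V → Prop) (U : V → Finset V) (a : V) : Finset V :=
  open Classical in univ.filter fun x => ∃ y, R a y ∧ x ∈ U y

/-- column erosion -/
noncomputable def le' (R : V → V → Prop) (U : V → Finset V) (a : V) : Finset V :=
  open Classical in univ.filter fun x => ∀ z, R z a → x ∈ U z

/-- inner cost -/
noncomputable def Ei (R : V → V → Prop) (p : (V → Finset V) × (V → Finset V)) : ℤ :=
  ∑ a, ((p.1 a).card : ℤ) - ∑ a, ((rs R p.1 a).card : ℤ) +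
    ∑ a, ((ld R p.2 a).card : ℤ) - ∑ a, ((p.2 a).card : ℤ)

/-- outer cost -/
noncomputable def Eo (R : V → V → Prop) (p : (V → Finset V) × (V → Finset V)) : ℤ :=
  ∑ a, ((nb R (p.1 a)).card : ℤ) - ∑ a, ((p.1 a).card : ℤ) +
    ∑ a, ((p.2 a).card : ℤ) - ∑ a, ((le' R p.2 a).card : ℤ)

/-- the comparison: inner minimum is at most the outer minimum -/
theorem m12 {R : V → V → Prop} (hr : ∀ a, R a a) (ho : ∀ a b, R a b → R b a → a = b)
    (P Q : V → Finset V) (hv : Valid R P Q)
    (hmin : ∀ P' Q', Valid R P' Q' → Eo R (P, Q) ≤ Eo R (P', Q')) :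
    ∃ B U, Valid R B U ∧ Ei R (B, U) ≤ Eo R (P, Q) := by
  classical
  obtain ⟨v1, v2, v3⟩ := hv
  let c : Finset V → ℤ := fun S => ((nb R S).card : ℤ) - S.card
  have sub : ∀ S T, c (S ∪ T) + c (S ∩ T) ≤ c S + c T := by
    intro S T
    have h1 : (nb R (S ∪ T)).card + (nb R (S ∩ T)).card ≤ (nb R S).card + (nb R T).card := by
      rw [nb_union]
      have h2 := card_union_add_card_inter (nb R S) (nb R T)
      have h3 : nb R (S ∩ T) ⊆ nb R S ∩ nb R T :=
        subset_inter (nb_mono R inter_subset_left) (nb_mono R inter_subset_right)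
      have h4 := card_le_card h3
      omega
    have h5 := card_union_add_card_inter S T
    simp only [c]
    omega
  let I : V → Finset V := fun a => univ.filter fun z => R z a
  have hI : ∀ a z, z ∈ I a ↔ R z a := by intro a z; simp [I]
  have hR : ∀ a S, P a ⊆ S → S ⊆ Q a → c (P a) ≤ c S := by
    intro a S h1 h2
    have hv' : Valid R (Function.update P a S) Q := by
      refine ⟨?_, ?_, v3⟩
      · intro b x hbx
        by_cases hb : b = a
        · subst hb; simp only [Function.update_self]; exact h1 (v1 _ _ hbx)
        · simp only [Function.update_of_ne hb]; exact v1 _ _ hbx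
      · intro b
        by_cases hb : b = a
        · subst hb; simpa only [Function.update_self] using h2
        · simpa only [Function.update_of_ne hb] using v2 b
    have := hmin _ _ hv'
    simp only [Eo] at this
    have e1 : ∑ b, ((nb R (Function.update P a S b)).card : ℤ) =
        ∑ b, ((nb R (P b)).card : ℤ) + ((nb R S).card - (nb R (P a)).card) := by
      rw [← Finset.add_sum_erase _ _ (mem_univ a), ← Finset.add_sum_erase (a := a) (s := univ)
        (f := fun b => ((nb R (P b)).card : ℤ)) (mem_univ a)]
      have : ∑ b ∈ univ.erase a, ((nb R (Function.update P a S b)).card : ℤ) =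
          ∑ b ∈ univ.erase a, ((nb R (P b)).card : ℤ) := by
        apply Finset.sum_congr rfl
        intro b hb
        rw [Function.update_of_ne (ne_of_mem_erase hb)]
      rw [this, Function.update_self]
      ring
    have e2 : ∑ b, ((Function.update P a S b).card : ℤ) =
        ∑ b, ((P b).card : ℤ) + (S.card - (P a).card) := by
      rw [← Finset.add_sum_erase _ _ (mem_univ a), ← Finset.add_sum_erase (a := a) (s := univ)
        (f := fun b => ((P b).card : ℤ)) (mem_univ a)]
      have : ∑ b ∈ univ.erase a, ((Function.update P a S b).card : ℤ) =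
          ∑ b ∈ univ.erase a, ((P b).card : ℤ) := by
        apply Finset.sum_congr rfl
        intro b hb
        rw [Function.update_of_ne (ne_of_mem_erase hb)]
      rw [this, Function.update_self]
      ring
    rw [e1, e2] at this
    simp only [c]
    linarith
  have hC : ∀ b (T : Finset V), (∀ a ∈ T, b ∈ Q a ∧ b ∉ P a) →
      T.card ≤ (univ.filter fun a' => (∀ z ∈ I a', b ∈ Q z) ∧ ∃ z ∈ I a', z ∈ T).card := by
    intro b T hT
    let Q' : V → Finset V := fun a => if a ∈ T then (Q a).erase b else Q a
    have hQ' : ∀ a, Q' a ⊆ Q a := by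
      intro a
      simp only [Q']
      split_ifs
      · exact erase_subset _ _
      · exact Subset.refl _
    have hv' : Valid R P Q' := by
      refine ⟨v1, ?_, ?_⟩
      · intro a x hx
        simp only [Q']
        split_ifs with h
        · rw [mem_erase]
          refine ⟨?_, v2 a hx⟩
          rintro rfl
          exact (hT a h).2 hx
        · exact v2 a hx
      · intro a x hx
        exact v3 a x (hQ' a hx)
    have := hmin _ _ hv'
    simp only [Eo] at this
    have e1 : ∑ a, ((Q' a).card : ℤ) = ∑ a, ((Q a).card : ℤ) - T.card := by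
      have : ∀ a, ((Q' a).card : ℤ) = (Q a).card - (if a ∈ T then 1 else 0) := by
        intro a
        simp only [Q']
        split_ifs with h
        · have := card_erase_add_one (hT a h).1
          omega
        · simp
      rw [Finset.sum_congr rfl (fun a _ => this a), Finset.sum_sub_distrib]
      simp
    have e2 : ∑ a, ((le' R Q a).card : ℤ) - (univ.filter fun a' => (∀ z ∈ I a', b ∈ Q z) ∧
        ∃ z ∈ I a', z ∈ T).card ≤ ∑ a, ((le' R Q' a).card : ℤ) := by
      have : ∀ a, ((le' R Q a).card : ℤ) - (if (∀ z ∈ I a, b ∈ Q z) ∧ ∃ z ∈ I a, z ∈ T then 1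
          else 0) ≤ (le' R Q' a).card := by
        intro a
        have h1 : (le' R Q a).erase b ⊆ le' R Q' a := by
          intro x hx
          rw [mem_erase] at hx
          simp only [le', mem_filter, mem_univ, true_and] at hx ⊢
          intro z hz
          simp only [Q']
          split_ifs
          · exact mem_erase.2 ⟨hx.1, hx.2 z hz⟩
          · exact hx.2 z hz
        split_ifs with h
        · have h2 := card_le_card h1
          have h3 := Finset.pred_card_le_card_erase (s := le' R Q a) (a := b)
          omega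
        · have h2 : le' R Q a ⊆ le' R Q' a := by
            intro x hx
            by_cases hxb : x = b
            · subst hxb
              simp only [le', mem_filter, mem_univ, true_and] at hx ⊢
              intro z hz
              have hzT : z ∉ T := by
                intro hzT
                apply h
                exact ⟨fun z hz => hx z ((hI a z).1 hz), z, (hI a z).2 hz, hzT⟩
              simp only [Q', hzT, if_false]
              exact hx z hz
            · exact h1 (mem_erase.2 ⟨hxb, hx⟩)
          have := card_le_card h2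
          simp only [sub_zero]
          exact_mod_cast this
      have h5 := Finset.sum_le_sum (fun a (_ : a ∈ (univ : Finset V)) => this a)
      rw [Finset.sum_sub_distrib] at h5
      simp only [Finset.sum_boole] at h5
      exact_mod_cast h5
    rw [e1] at this
    have : (T.card : ℤ) ≤ (univ.filter fun a' => (∀ z ∈ I a', b ∈ Q z) ∧
        ∃ z ∈ I a', z ∈ T).card := by linarith
    exact_mod_cast this
  have key := keyLemma c sub I P Q v2 hR hC
  -- candidate
  have hmemS : ∀ (W : V → Finset V) a x, x ∈ sh I W a ↔ ∀ z, R z a → x ∈ W z := by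
    intro W a x
    simp [sh, hI]
  have hle : ∀ a, le' R Q a = sh I Q a := by
    intro a; ext x
    rw [hmemS]; simp [le']
  refine ⟨fun a => nb R (sh I P a), fun a => nb R (sh I Q a), ⟨?_, ?_, ?_⟩, ?_⟩
  · intro a x hax
    rw [mem_nb]
    refine ⟨a, ?_, hax⟩
    rw [hmemS]
    intro z hz
    exact v1 z a hz
  · intro a
    apply nb_mono
    intro x hx
    rw [hmemS] at hx ⊢
    exact fun z hz => v2 z (hx z hz)
  · intro a x hx hxa
    rw [mem_nb] at hx
    obtain ⟨y, hy, hyx⟩ := hx
    rw [hmemS] at hy
    have h1 := v3 x y (hy x hxa) hyx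
    subst h1
    exact v3 a x (hy a (hr a)) hxa
  · have h1 : ∀ a, ((sh I P a).card : ℤ) ≤ (rs R (fun a => nb R (sh I P a)) a).card := by
      intro a
      have : sh I P a ⊆ rs R (fun a => nb R (sh I P a)) a := by
        intro x hx
        simp only [rs, mem_filter, mem_univ, true_and]
        intro y hxy
        rw [mem_nb]
        exact ⟨x, hx, hxy⟩
      exact_mod_cast card_le_card this
    have h2 : ∀ a, ((ld R (fun a => nb R (sh I Q a)) a).card : ℤ) ≤ (nb R (Q a)).card := by
      intro a
      have : ld R (fun a => nb R (sh I Q a)) a ⊆ nb R (Q a) := by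
        intro x hx
        simp only [ld, mem_filter, mem_univ, true_and, mem_nb] at hx ⊢
        obtain ⟨y, hay, u, hu, hux⟩ := hx
        rw [hmemS] at hu
        exact ⟨u, hu a hay, hux⟩
      exact_mod_cast card_le_card this
    have s1 := Finset.sum_le_sum (fun a (_ : a ∈ (univ : Finset V)) => h1 a)
    have s2 := Finset.sum_le_sum (fun a (_ : a ∈ (univ : Finset V)) => h2 a)
    simp only [c, Finset.sum_sub_distrib] at key
    simp only [Ei, Eo, hle]
    linarith

/-- no counterexample -/
theorem no_CE [Nonempty V] (R : V → V → Prop) (h : CE R) : False := by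
  classical
  -- arc-minimal
  obtain ⟨R, h, hmin⟩ : ∃ R : V → V → Prop, CE R ∧ ∀ R' : V → V → Prop, CE R' → narc R ≤ narc R' := by
    obtain ⟨R₀, hR₀, hm⟩ := Set.exists_min_image {R : V → V → Prop | CE R} narc
      (Set.toFinite _) ⟨R, h⟩
    exact ⟨R₀, hR₀, hm⟩
  have hG := gset h hmin
  obtain ⟨hr, ho, hF⟩ := h
  -- a valid pair
  have hA : Valid R (fun a => nb R {a}) (fun a => nb R {a}) := by
    refine ⟨?_, fun a => Subset.refl _, ?_⟩
    · intro a x hax; rw [mem_nb]; exact ⟨a, by simp, hax⟩
    · intro a x hx hxa
      rw [mem_nb] at hx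
      obtain ⟨y, hy, hyx⟩ := hx
      rw [mem_singleton] at hy
      subst hy
      exact ho _ _ hyx hxa
  obtain ⟨⟨B, U⟩, hBU, hBmin⟩ := Set.exists_min_image
    {p : (V → Finset V) × (V → Finset V) | Valid R p.1 p.2} (Ei R) (Set.toFinite _) ⟨(_, _), hA⟩
  obtain ⟨⟨P, Q⟩, hPQ, hPmin⟩ := Set.exists_min_image
    {p : (V → Finset V) × (V → Finset V) | Valid R p.1 p.2} (Eo R) (Set.toFinite _) ⟨(_, _), hA⟩
  have hBU' : Valid R B U := hBU
  obtain ⟨B', U', hv', hE'⟩ := m12 hr ho P Q hPQ (fun P' Q' hv => hPmin (P', Q') hv)
  have hE1 : Ei R (B, U) ≤ Eo R (P, Q) := (hBmin (B', U') hv').trans hE'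
  obtain ⟨b1, b2, b3⟩ := hBU'
  let X : V → Finset V := fun a => rs R B a
  let Y : V → Finset V := fun b => univ.filter fun z => ∀ y, R z y → y = b ∨ b ∉ U y
  have mX : ∀ a x, x ∈ X a ↔ ∀ y, R x y → y ∈ B a := by intro a x; simp [X, rs]
  have mY : ∀ b z, z ∈ Y b ↔ ∀ y, R z y → y = b ∨ b ∉ U y := by intro b z; simp [Y]
  let B1 : V → Finset V := fun a => nb R (X a)
  let U1 : V → Finset V := fun a => univ.filter fun b => a = b ∨ a ∉ nb R (Y b)
  have mU1 : ∀ a b, b ∈ U1 a ↔ (a = b ∨ a ∉ nb R (Y b)) := by intro a b; simp [U1]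
  have hXa : ∀ a, a ∈ X a := by intro a; rw [mX]; exact fun y hy => b1 a y hy
  have hYb : ∀ b, b ∈ Y b := by
    intro b; rw [mY]
    intro y hy
    by_cases hyb : b ∈ U y
    · left; exact b3 y b hyb hy
    · exact Or.inr hyb
  have hB1B : ∀ a, B1 a ⊆ B a := by
    intro a y hy
    simp only [B1, mem_nb] at hy
    obtain ⟨x, hx, hxy⟩ := hy
    exact (mX a x).1 hx y hxy
  have nbY : ∀ b a, a ∈ nb R (Y b) → a = b ∨ b ∉ U a := by
    intro b a ha
    rw [mem_nb] at ha
    obtain ⟨z, hz, hza⟩ := ha
    exact (mY b z).1 hz a hza
  have hUU1 : ∀ a, U a ⊆ U1 a := by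
    intro a b hb
    rw [mU1]
    by_cases hab : a = b
    · exact Or.inl hab
    · right
      intro hc
      rcases nbY b a hc with h | h
      · exact hab h
      · exact h hb
  have hV1 : Valid R B1 U1 := by
    refine ⟨?_, ?_, ?_⟩
    · intro a x hax
      simp only [B1, mem_nb]
      exact ⟨a, hXa a, hax⟩
    · intro a
      exact (hB1B a).trans ((b2 a).trans (hUU1 a))
    · intro a b hb hba
      rw [mU1] at hb
      rcases hb with h | h
      · exact h
      · exfalso
        apply h
        rw [mem_nb]
        exact ⟨b, hYb b, hba⟩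
  have hE2 : Eo R (P, Q) ≤ Eo R (B1, U1) := hPmin (B1, U1) hV1
  -- column sums
  have colsum : ∀ W : V → Finset V, ∑ a, ((W a).card : ℤ) =
      ∑ b, ((univ.filter fun a => b ∈ W a).card : ℤ) := by
    intro W
    have : ∀ a, ((W a).card : ℤ) = ∑ b, (if b ∈ W a then (1 : ℤ) else 0) := by
      intro a
      rw [Finset.sum_boole]
      simp
    rw [Finset.sum_congr rfl (fun a _ => this a), Finset.sum_comm]
    apply Finset.sum_congr rfl
    intro b _
    rw [Finset.sum_boole]
  have n0 : ∀ (S : Finset V), ((univ \ S).card : ℤ) = Fintype.card V - S.card := by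
    intro S
    have h1 := card_sdiff_add_card_eq_card (subset_univ S)
    rw [card_univ] at h1
    omega
  have insc : ∀ (S : Finset V) b, b ∈ S → ((insert b (univ \ S)).card : ℤ) =
      Fintype.card V - S.card + 1 := by
    intro S b hb
    rw [card_insert_of_notMem (by simp [hb])]
    push_cast
    rw [n0]
  have hbnbY : ∀ b, b ∈ nb R (Y b) := fun b => sub_nb hr _ (hYb b)
  -- lower bound of Ei
  have L1 : ∑ a, ((nb R (X a)).card : ℤ) - ∑ a, ((X a).card : ℤ) +
      (∑ b, ((nb R (Y b)).card : ℤ) - ∑ b, ((Y b).card : ℤ)) ≤ Ei R (B, U) := by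
    have q1 : ∑ a, ((nb R (X a)).card : ℤ) ≤ ∑ a, ((B a).card : ℤ) := by
      apply Finset.sum_le_sum
      intro a _
      exact_mod_cast card_le_card (hB1B a)
    have q2 : ∑ b, ((nb R (Y b)).card : ℤ) - ∑ b, ((Y b).card : ℤ) ≤
        ∑ a, ((ld R U a).card : ℤ) - ∑ a, ((U a).card : ℤ) := by
      rw [colsum (ld R U), colsum U, ← Finset.sum_sub_distrib, ← Finset.sum_sub_distrib]
      apply Finset.sum_le_sum
      intro b _
      have c1 : insert b (univ \ Y b) ⊆ univ.filter fun a => b ∈ ld R U a := by
        intro z hz
        simp only [mem_filter, mem_univ, true_and, ld]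
        rw [mem_insert] at hz
        rcases hz with rfl | hz
        · exact ⟨z, hr z, b2 z (b1 z z (hr z))⟩
        · rw [mem_sdiff, mY] at hz
          push Not at hz
          obtain ⟨_, y, hzy, _, hbU⟩ := hz
          exact ⟨y, hzy, hbU⟩
      have c2 : (univ.filter fun a => b ∈ U a) ⊆ insert b (univ \ nb R (Y b)) := by
        intro a ha
        simp only [mem_filter, mem_univ, true_and] at ha
        rw [mem_insert, mem_sdiff]
        by_cases hab : a = b
        · exact Or.inl hab
        · right
          refine ⟨mem_univ _, fun hc => ?_⟩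
          rcases nbY b a hc with h | h
          · exact hab h
          · exact h ha
      have d1 : ((insert b (univ \ Y b)).card : ℤ) ≤
          (univ.filter fun a => b ∈ ld R U a).card := by exact_mod_cast card_le_card c1
      have d2 : ((univ.filter fun a => b ∈ U a).card : ℤ) ≤
          (insert b (univ \ nb R (Y b))).card := by exact_mod_cast card_le_card c2
      rw [insc _ _ (hYb b)] at d1
      rw [insc _ _ (hbnbY b)] at d2
      linarith
    simp only [Ei]
    have q3 : ∑ a, ((rs R B a).card : ℤ) = ∑ a, ((X a).card : ℤ) := rfl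
    linarith
  -- upper bound of Eo
  have L2 : Eo R (B1, U1) ≤ ∑ a, ((nb R (nb R (X a))).card : ℤ) - ∑ a, ((nb R (X a)).card : ℤ) +
      (∑ b, ((nb R (nb R (Y b))).card : ℤ) - ∑ b, ((nb R (Y b)).card : ℤ)) := by
    have q2 : ∑ a, ((U1 a).card : ℤ) - ∑ a, ((le' R U1 a).card : ℤ) ≤
        ∑ b, ((nb R (nb R (Y b))).card : ℤ) - ∑ b, ((nb R (Y b)).card : ℤ) := by
      rw [colsum (le' R U1), colsum U1, ← Finset.sum_sub_distrib, ← Finset.sum_sub_distrib]
      apply Finset.sum_le_sum
      intro b _
      have c1 : insert b (univ \ nb R (nb R (Y b))) ⊆ univ.filter fun a => b ∈ le' R U1 a := by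
        intro a ha
        simp only [mem_filter, mem_univ, true_and, le']
        intro z hza
        rw [mU1]
        rw [mem_insert] at ha
        by_cases hzb : z = b
        · exact Or.inl hzb
        · right
          intro hz
          rcases ha with rfl | ha
          · rcases nbY _ _ hz with h | h
            · exact hzb h
            · exact h (b2 z (b1 z a hza))
          · rw [mem_sdiff] at ha
            apply ha.2
            rw [mem_nb]
            exact ⟨z, hz, hza⟩
      have c2 : (univ.filter fun a => b ∈ U1 a) ⊆ insert b (univ \ nb R (Y b)) := by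
        intro a ha
        simp only [mem_filter, mem_univ, true_and] at ha
        rw [mU1] at ha
        rw [mem_insert, mem_sdiff]
        rcases ha with h | h
        · exact Or.inl h
        · exact Or.inr ⟨mem_univ _, h⟩
      have d1 : ((insert b (univ \ nb R (nb R (Y b)))).card : ℤ) ≤
          (univ.filter fun a => b ∈ le' R U1 a).card := by exact_mod_cast card_le_card c1
      have d2 : ((univ.filter fun a => b ∈ U1 a).card : ℤ) ≤
          (insert b (univ \ nb R (Y b))).card := by exact_mod_cast card_le_card c2
      rw [insc _ _ (sub_nb hr _ (hbnbY b))] at d1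
      rw [insc _ _ (hbnbY b)] at d2
      linarith
    simp only [Eo, B1]
    linarith
  -- (G) weak
  have hGw : ∀ S : Finset V, ((nb R (nb R S)).card : ℤ) - (nb R S).card ≤
      (nb R S).card - S.card := by
    intro S
    by_cases hS : nb R S = S
    · rw [hS, hS]
    · have := hG S hS; omega
  have hGs : ∀ S : Finset V, nb R S ≠ S → ((nb R (nb R S)).card : ℤ) - (nb R S).card <
      (nb R S).card - S.card := by
    intro S hS
    have := hG S hS; omega
  have L3 : ∑ b, ((nb R (nb R (Y b))).card : ℤ) - ∑ b, ((nb R (Y b)).card : ℤ) ≤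
      ∑ b, ((nb R (Y b)).card : ℤ) - ∑ b, ((Y b).card : ℤ) := by
    rw [← Finset.sum_sub_distrib, ← Finset.sum_sub_distrib]
    exact Finset.sum_le_sum (fun b _ => hGw _)
  have L4 : ∑ a, ((nb R (X a)).card : ℤ) - ∑ a, ((X a).card : ℤ) ≤
      ∑ a, ((nb R (nb R (X a))).card : ℤ) - ∑ a, ((nb R (X a)).card : ℤ) := by linarith
  have hclosed : ∀ a, nb R (X a) = X a := by
    intro a
    by_contra ha
    rw [← Finset.sum_sub_distrib, ← Finset.sum_sub_distrib] at L4
    have := Finset.sum_lt_sum (fun b (_ : b ∈ (univ : Finset V)) => hGw (X b))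
      ⟨a, mem_univ a, hGs _ ha⟩
    linarith
  -- minimal closed set
  obtain ⟨Z, hZ, hZmin⟩ := Set.exists_min_image {Z : Finset V | Z.Nonempty ∧ nb R Z = Z}
    (fun Z => Z.card) (Set.toFinite _) ⟨univ, univ_nonempty,
      Subset.antisymm (subset_univ _) (sub_nb hr _)⟩
  obtain ⟨⟨a, ha⟩, hZc⟩ := hZ
  -- out-neighbour of a
  obtain ⟨x, hax, hxa⟩ : ∃ x, R a x ∧ x ≠ a := by
    by_contra hcon
    push Not at hcon
    have e : nb R {a} = {a} := by
      ext y
      rw [mem_nb]
      simp only [mem_singleton, exists_eq_left]
      constructor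
      · exact fun hy => hcon y hy
      · rintro rfl; exact hr y
    have := hF a
    rw [e, e] at this
    simp at this
  have hxZ : x ∈ Z := by
    rw [← hZc, mem_nb]; exact ⟨a, ha, hax⟩
  have hint : nb R (Z ∩ X x) = Z ∩ X x := by
    apply Subset.antisymm
    · have h1 := nb_mono R (inter_subset_left (s₁ := Z) (s₂ := X x))
      have h2 := nb_mono R (inter_subset_right (s₁ := Z) (s₂ := X x))
      rw [hZc] at h1
      rw [hclosed x] at h2
      exact subset_inter h1 h2
    · exact sub_nb hr _
  have hle := hZmin (Z ∩ X x) ⟨⟨x, mem_inter.2 ⟨hxZ, hXa x⟩⟩, hint⟩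
  have heq := Finset.eq_of_subset_of_card_le (inter_subset_left (s₁ := Z) (s₂ := X x)) hle
  have haX : a ∈ X x := by
    have : a ∈ Z ∩ X x := by rw [heq]; exact ha
    exact (mem_inter.1 this).2
  have haB : a ∈ B x := hB1B x (by simp only [B1]; rw [hclosed x]; exact haX)
  exact hxa (b3 x a (b2 x haB) hax)

/-- **Seymour's second neighbourhood conjecture.** -/
theorem snc (V : Type*) [Fintype V] [Nonempty V] (adj : V → V → Prop)
    (hasym : ∀ u v, adj u v → ¬ adj v u) :
    ∃ v, Nat.card {u | adj v u} ≤
      Nat.card {w | w ≠ v ∧ ¬ adj v w ∧ ∃ u, adj v u ∧ adj u w} := by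
  classical
  by_contra hcon
  push Not at hcon
  have hirr : ∀ v, ¬ adj v v := fun v h => hasym v v h h
  apply no_CE (fun a b : V => a = b ∨ adj a b)
  refine ⟨fun a => Or.inl rfl, ?_, ?_⟩
  · rintro a b (h | h) (h2 | h2)
    · exact h
    · exact h
    · exact h2.symm
    · exact absurd h2 (hasym a b h)
  · intro v
    have h := hcon v
    set R : V → V → Prop := fun a b => a = b ∨ adj a b with hR
    set N1 : Finset V := univ.filter fun u => adj v u with hN1
    set N2 : Finset V := univ.filter fun w => w ≠ v ∧ ¬ adj v w ∧ ∃ u, adj v u ∧ adj u w with hN2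
    have c1 : Nat.card {u | adj v u} = N1.card := by
      rw [Nat.card_eq_fintype_card, Fintype.card_subtype]
      simp [hN1]
    have c2 : Nat.card {w | w ≠ v ∧ ¬ adj v w ∧ ∃ u, adj v u ∧ adj u w} = N2.card := by
      rw [Nat.card_eq_fintype_card, Fintype.card_subtype]
      simp [hN2]
    rw [c1, c2] at h
    have e1 : nb R {v} = insert v N1 := by
      ext y
      simp only [mem_nb, mem_singleton, exists_eq_left, hR, mem_insert, hN1, mem_filter,
        mem_univ, true_and]
      constructor
      · rintro (h | h)
        · exact Or.inl h.symm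
        · exact Or.inr h
      · rintro (h | h)
        · exact Or.inl h.symm
        · exact Or.inr h
    have e2 : nb R (nb R {v}) ⊆ insert v N1 ∪ N2 := by
      intro y hy
      rw [e1, mem_nb] at hy
      obtain ⟨x, hx, hxy⟩ := hy
      simp only [mem_insert, hN1, hN2, mem_union, mem_filter, mem_univ, true_and] at hx ⊢
      rcases hx with rfl | hx
      · rcases hxy with rfl | hxy
        · exact Or.inl (Or.inl rfl)
        · exact Or.inl (Or.inr hxy)
      · rcases hxy with rfl | hxy
        · exact Or.inl (Or.inr hx)
        · by_cases h1 : y = v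
          · exact Or.inl (Or.inl h1)
          · by_cases h2 : adj v y
            · exact Or.inl (Or.inr h2)
            · exact Or.inr ⟨h1, h2, x, hx, hxy⟩
    have c3 : (nb R {v}).card = N1.card + 1 := by
      rw [e1, card_insert_of_notMem]
      simp [hN1, hirr v]
    have c4 := card_le_card e2
    have c5 := card_union_le (insert v N1) N2
    rw [← e1, c3] at c5
    rw [← e1] at c4
    omega

end Vale.Agent.P038.H259
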